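import Vale.Agent.P354YJ.JDefs
import Vale.Agent.P354XA.Fr

/-!
Phase 3, block JK: the properties of the embeddings JJ which follow from the formulas.
-/

open scoped ContDiff
open Set

noncomputable section

namespace Vale.Agent.P354YW

open Vale.Agent.P354n (R4)
open Vale.Agent.P354I (X P3 rm rp)
open Vale.Agent.P354R (omm)
open Vale.Agent.P354RG (Y3 IsG gs gz zh)
open Vale.Agent.P354XE (xs pt rd ka kp ky mf mir cyl)
open Vale.Agent.P354D (sgn)
open Vale.Agent.P354YJ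
open Vale.Agent.P354XA (xs_pt hor)

/-! ### Rotations -/

theorem nsq (z : X) : ‖z‖ ^ 2 = z 0 ^ 2 + z 1 ^ 2 + z 2 ^ 2 := by
  rw [EuclideanSpace.real_norm_sq_eq, Fin.sum_univ_three]

theorem rz_norm (c : ℝ) (z : X) : ‖rz c z‖ = ‖z‖ := by
  rw [← sq_eq_sq₀ (norm_nonneg _) (norm_nonneg _), nsq, nsq]
  simp only [rz, Matrix.cons_val_zero, Matrix.cons_val_one, Matrix.cons_val]
  linear_combination (z 0 ^ 2 + z 1 ^ 2) * Real.cos_sq_add_sin_sq c

theorem rz_smul (c r : ℝ) (z : X) : rz c (r • z) = r • rz c z := by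
  ext i; fin_cases i <;> simp [rz] <;> ring

theorem rz_rz (c d : ℝ) (z : X) : rz c (rz d z) = rz (c + d) z := by
  ext i; fin_cases i <;> simp [rz, Real.cos_add, Real.sin_add] <;> ring

theorem rz_zero (z : X) : rz 0 z = z := by
  ext i; fin_cases i <;> simp [rz]

theorem rz_inj {c : ℝ} {z z' : X} (h : rz c z = rz c z') : z = z' := by
  have := congrArg (rz (-c)) h
  rwa [rz_rz, rz_rz, neg_add_cancel, rz_zero, rz_zero] at this

theorem kp_eq (M a U V c : ℝ) (z : X) :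
    kp M a U V c z = pt ((U + V) / 2) ((ky M a ((V - U) / 2) / ‖z‖) • rz c z) := rfl

theorem kp_smul (M a U V c : ℝ) {r : ℝ} (hr : 0 < r) (z : X) :
    kp M a U V c (r • z) = kp M a U V c z := by
  rw [kp_eq, kp_eq, rz_smul, smul_smul, norm_smul, Real.norm_of_nonneg hr.le]
  congr 2
  rw [div_mul_eq_mul_div, mul_comm r, mul_div_mul_right _ _ hr.ne']

theorem kp_rz (M a U V c d : ℝ) (z : X) : kp M a U V c (rz d z) = kp M a U V (c + d) z := by
  rw [kp_eq, kp_eq, rz_rz, rz_norm]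

theorem rd_pt (t : ℝ) (z : X) : rd (pt t z) = ‖z‖ := by rw [rd, xs_pt]

theorem pt_xs (w : R4) : pt w.1 (xs w) = w := rfl

theorem xs_smul (t c : ℝ) (w : R4) : xs (t, c • w.2) = c • xs w := by
  ext i; fin_cases i <;> simp [xs]

theorem sgn_sq (b : Bool) : sgn b ^ 2 = 1 := by cases b <;> simp [sgn]

/-! ### The Kruskal chart -/

theorem ky_pos {M a : ℝ} (h : |a| < M) (x : ℝ) :
    0 < ky M a x ∧ ky M a x * ky M a (-x) = (M ^ 2 - a ^ 2) / 4 := by
  have h1 : 0 < M ^ 2 - a ^ 2 := by nlinarith [sq_abs a, abs_nonneg a]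
  have h2 := Real.sqrt_pos.2 h1
  have h3 := Real.sq_sqrt h1.le
  have h4 : 0 ≤ x ^ 2 + 2 * √(M ^ 2 - a ^ 2) := by positivity
  have h5 := Real.sq_sqrt h4
  have h6 : |x| < √(x ^ 2 + 2 * √(M ^ 2 - a ^ 2)) := Real.lt_sqrt_of_sq_lt (by
    rw [sq_abs]; linarith)
  have h7 : 0 < x + √(x ^ 2 + 2 * √(M ^ 2 - a ^ 2)) := by linarith [neg_abs_le x]
  refine ⟨by unfold ky; positivity, ?_⟩
  unfold ky
  rw [neg_sq]
  generalize √(x ^ 2 + 2 * √(M ^ 2 - a ^ 2)) = E at *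
  generalize √(M ^ 2 - a ^ 2) = D at *
  rw [← h3]
  linear_combination (E ^ 2 - x ^ 2 + 2 * D) / 16 * h5

/-- The reflection. -/
def rf (z : X) : X := !₂[z 0, -z 1, z 2]

theorem rf_norm (z : X) : ‖rf z‖ = ‖z‖ := by
  rw [← sq_eq_sq₀ (norm_nonneg _) (norm_nonneg _), nsq, nsq]
  simp [rf]

theorem mir_kp {M a : ℝ} (h : |a| < M) (U V c : ℝ) {z : X} (hz : ‖z‖ = 1) :
    mir M a (kp M a V U (-c) (rf z)) = kp M a U V c z := by
  obtain ⟨k1, k2⟩ := ky_pos h ((U - V) / 2)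
  have e : (V - U) / 2 = -((U - V) / 2) := by ring
  have k3 : (M ^ 2 - a ^ 2) / (4 * ky M a ((U - V) / 2) ^ 2) * ky M a ((U - V) / 2) =
      ky M a (-((U - V) / 2)) := by
    field_simp
    linarith
  rw [kp_eq, kp_eq, mir, rd_pt, norm_smul, rz_norm, rf_norm, hz, div_one, div_one, mul_one,
    Real.norm_of_nonneg k1.le, e, ← k3]
  simp only [pt, rz, rf]
  ext <;> simp <;> ring

/-- The Kruskal coordinates of a point between the horizons. -/
theorem kap_pt {M a r : ℝ} (h : |a| < M) (h0 : 0 < r) (h1 : rm M a < r) (h2 : r < rp M a)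
    (T c : ℝ) {z : X} (hz : ‖z‖ = 1) :
    P354XE.kap M a (pt (T + hT M a r) (r • rz (c + hP M a r) z)) =
      kp M a (√(rp M a - r) * Real.exp (-(ka M a * T))) (√(rp M a - r) * Real.exp (ka M a * T))
        (c - a / (2 * M * rp M a) * T) z := by
  obtain ⟨m0, m1, m2, -, m4, -, m6⟩ := hor h
  have p0 : 0 < rp M a := by linarith
  have q1 : 0 < rp M a - r := by linarith
  have q2 : 0 < r - rm M a := by linarith
  have q3 := Real.sqrt_pos.2 q1
  have q4 := Real.sq_sqrt q1.le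
  have e1 : mf M a r * Real.exp (ka M a * (T + hT M a r)) =
      √(rp M a - r) * Real.exp (ka M a * T) := by
    rw [mf, Real.rpow_def_of_pos q2, Real.sqrt_eq_rpow, Real.rpow_def_of_pos q1,
      ← Real.exp_add, ← Real.exp_add, hT]
    congr 1
    field_simp
    ring
  have e2 : -(r - rp M a) / (√(rp M a - r) * Real.exp (ka M a * T)) =
      √(rp M a - r) * Real.exp (-(ka M a * T)) := by
    rw [Real.exp_neg]
    field_simp
    linarith
  have e3 : a / rp M a * Real.log (r - rm M a) - a / (2 * M * rp M a) * (T + hT M a r) +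
      (c + hP M a r) = c - a / (2 * M * rp M a) * T := by
    have m7 : rm M a = rp M a - 4 * M * rp M a * ka M a := by linarith
    rw [hT, hP, m6]
    generalize Real.log (r - rm M a) = L
    rw [m7]
    field_simp
    ring
  rw [P354XE.kap, rd_pt, xs_pt, norm_smul, rz_norm, hz, mul_one, Real.norm_of_nonneg h0.le,
    show (pt (T + hT M a r) (r • rz (c + hP M a r) z)).1 = T + hT M a r from rfl, e1, e2,
    kp_smul _ _ _ _ _ h0, kp_rz, e3]

/-! ### The embeddings -/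

variable {p0 p : P3} {k ε0 δ : ℝ} {G H : ℕ → Y3 → ℝ} {w : R4}

theorem zh_abs (y : X) : |zh y| ≤ 1 := by
  rw [zh, abs_div, abs_norm]
  exact div_le_one_of_le₀ (by simpa using PiLp.norm_apply_le y 2) (norm_nonneg _)

theorem rm_pos {M a : ℝ} (h0 : a ≠ 0) (h : |a| < M) : 0 < rm M a := by
  have : 0 < M := (abs_nonneg a).trans_lt h
  rw [rm, sub_pos, Real.sqrt_lt' this]
  nlinarith [sq_pos_of_ne_zero h0]

theorem kap_pos {M a : ℝ} (h0 : a ≠ 0) (h : |a| < M) : 0 < P354R.kap M a :=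
  div_pos (sub_pos.2 (hor h).2.2.1) (by positivity)

/-- The values of H at the arguments of a point. -/
theorem val (hG : IsG p0 k ε0 δ G) (hH : IsH p0 k ε0 δ G H) (hp : p ∈ Metric.ball p0 ε0)
    (hs : Real.exp (-k * w.1) < 1 + δ) :
    0 < H 0 (ar k p w) ∧ rm p.1 p.2.1 < H 0 (ar k p w) ∧ H 0 (ar k p w) < rp p.1 p.2.1 ∧
      0 < H 2 (ar k p w) ∧
      1 - H 1 (ar k p w) ^ 2 = (1 - zh (xs w) ^ 2) * H 2 (ar k p w) ^ 2 := by
  obtain ⟨a0, a1, -⟩ := hG.par p hp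
  obtain ⟨e1, e2, e3, e4, e5, -⟩ := hH.pos p hp _ ⟨(Real.exp_pos _).le, hs.le⟩ (zh (xs w))
    ((zh_abs _).trans (by linarith [hG.pos0.2.2]))
  have k : rm p.1 p.2.1 < H 0 (ar k p w) := by
    rw [ar, e1]
    exact lt_add_of_pos_right _ (mul_pos (Real.exp_pos _) e2)
  exact ⟨(rm_pos a0 a1).trans k, k, e3, e4, e5⟩

theorem dir_norm (hw : xs w ≠ 0) (b : Bool)
    (e : 1 - H 1 (ar k p w) ^ 2 = (1 - zh (xs w) ^ 2) * H 2 (ar k p w) ^ 2) :
    ‖dir k H b p w‖ = 1 := by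
  have h0 : rd w ≠ 0 := norm_ne_zero_iff.2 hw
  have h1 : rd w ^ 2 = w.2.1 ^ 2 + w.2.2.1 ^ 2 + w.2.2.2 ^ 2 := nsq (xs w)
  have h2 : zh (xs w) = w.2.2.2 / rd w := rfl
  rw [← sq_eq_sq₀ (norm_nonneg _) zero_le_one, nsq]
  simp only [dir, Matrix.cons_val_zero, Matrix.cons_val_one, Matrix.cons_val, mul_pow, sgn_sq,
    div_pow]
  rw [h2] at e
  field_simp at e ⊢
  linear_combination -e - H 2 (ar k p w) ^ 2 * h1

theorem dir_false : dir k H false p w = rf (dir k H true p w) := by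
  ext i; fin_cases i <;> simp [dir, rf, sgn]

theorem jj_rd (hw : xs w ≠ 0) (b : Bool) (h0 : 0 < H 0 (ar k p w))
    (e : 1 - H 1 (ar k p w) ^ 2 = (1 - zh (xs w) ^ 2) * H 2 (ar k p w) ^ 2) :
    rd (JJ k H b p w) = H 0 (ar k p w) := by
  rw [JJ, rd_pt, norm_smul, rz_norm, dir_norm hw b e, mul_one, Real.norm_of_nonneg h0.le]

theorem jj_dil (hw : xs w ≠ 0) (b : Bool) {c : ℝ} (hc : 0 < c) : JJ k H b p (w.1, c • w.2) =
    pt ((JJ k H b p w).1 + sgn b * (k / P354R.kap p.1 p.2.1 * Real.log c))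
      (rz (sgn b * (omm p.1 p.2.1 * (k / P354R.kap p.1 p.2.1 * Real.log c)))
        (xs (JJ k H b p w))) := by
  have h0 : rd w ≠ 0 := norm_ne_zero_iff.2 hw
  have e0 : rd (w.1, c • w.2) = c * rd w := by
    rw [rd, xs_smul, norm_smul, Real.norm_of_nonneg hc.le, rd]
  have e1 : ar k p (w.1, c • w.2) = ar k p w := by
    rw [ar, ar, xs_smul, zh, zh, norm_smul, Real.norm_of_nonneg hc.le, PiLp.smul_apply,
      smul_eq_mul, mul_div_mul_left _ _ hc.ne']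
  have e2 : tb k p (w.1, c • w.2) = tb k p w + k / P354R.kap p.1 p.2.1 * Real.log c := by
    rw [tb, tb, e0, Real.log_mul hc.ne' h0]
    ring
  have e3 : dir k H b p (w.1, c • w.2) = dir k H b p w := by
    rw [dir, dir, e1, e0]
    ext i; fin_cases i <;> simp <;> field_simp
    simp
  rw [JJ, JJ, xs_pt, ph, ph, e1, e2, e3, rz_smul, rz_rz]
  congr 1
  · simp only [pt]
    ring
  · congr 2
    ring

theorem jj_inj (hG : IsG p0 k ε0 δ G) (hH : IsH p0 k ε0 δ G H) (hp : p ∈ Metric.ball p0 ε0)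
    {t : ℝ} (hs : Real.exp (-k * t) < 1 + δ) (b : Bool) : InjOn (Js k H b p t) {0}ᶜ := by
  intro y hy y' hy' e
  obtain ⟨a0, a1, -⟩ := hG.par p hp
  have x1 : xs (pt t y) ≠ 0 := by rwa [xs_pt]
  have x2 : xs (pt t y') ≠ 0 := by rwa [xs_pt]
  obtain ⟨u0, -, -, u3, u4⟩ := val (w := pt t y) hG hH hp hs
  obtain ⟨v0, -, -, -, v4⟩ := val (w := pt t y') hG hH hp hs
  have r1 : H 0 (ar k p (pt t y)) = H 0 (ar k p (pt t y')) := by
    rw [← jj_rd x1 b u0 u4, ← jj_rd x2 b v0 v4]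
    exact congrArg rd e
  have r2 : H 1 (ar k p (pt t y)) = H 1 (ar k p (pt t y')) := by
    have k : H 0 (ar k p (pt t y)) * H 1 (ar k p (pt t y)) =
        H 0 (ar k p (pt t y')) * H 1 (ar k p (pt t y')) := congrArg (fun q : R4 => q.2.2.2) e
    rw [← r1] at k
    exact mul_left_cancel₀ u0.ne' k
  have d : ∀ ζ, HasDerivAt (fun ζ => H 1 (p, Real.exp (-k * t), ζ))
      (gz (H 1) (p, Real.exp (-k * t), ζ)) ζ := fun ζ =>
    (((hH.smooth 1).differentiable (by simp)) _).hasFDerivAt.comp_hasDerivAt ζ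
      ((hasDerivAt_const ζ p).prodMk ((hasDerivAt_const ζ _).prodMk (hasDerivAt_id ζ)))
  have m : StrictMonoOn (fun ζ => H 1 (p, Real.exp (-k * t), ζ)) (Icc (-1) 1) :=
    strictMonoOn_of_deriv_pos (convex_Icc _ _)
      (fun ζ _ => (d ζ).continuousAt.continuousWithinAt) fun ζ hζ => by
        have k : ζ ∈ Icc (-1 : ℝ) 1 := interior_subset hζ
        rw [(d ζ).deriv]
        exact (hH.pos p hp _ ⟨(Real.exp_pos _).le, hs.le⟩ ζ
          ((abs_le.2 k).trans (by linarith [hG.pos0.2.2]))).2.2.2.2.2.2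
  have r3 : zh (xs (pt t y)) = zh (xs (pt t y')) :=
    m.injOn (abs_le.1 (zh_abs _)) (abs_le.1 (zh_abs _)) r2
  have r4 : ar k p (pt t y) = ar k p (pt t y') := by rw [ar, ar, r3]; rfl
  have s0 : sgn b ≠ 0 := by cases b <;> simp [sgn]
  have r5 : tb k p (pt t y) = tb k p (pt t y') := by
    have k : sgn b * tb k p (pt t y) + hT p.1 p.2.1 (H 0 (ar k p (pt t y))) =
      sgn b * tb k p (pt t y') + hT p.1 p.2.1 (H 0 (ar k p (pt t y'))) := congrArg Prod.fst e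
    rw [r4] at k
    exact mul_left_cancel₀ s0 (add_right_cancel k)
  have n1 : 0 < rd (pt t y) := norm_pos_iff.2 x1
  have r6 : rd (pt t y) = rd (pt t y') := Real.log_injOn_pos n1 (norm_pos_iff.2 x2)
    (mul_left_cancel₀ (div_pos hG.pos0.1 (kap_pos a0 a1)).ne' r5)
  have r7 : dir k H b p (pt t y) = dir k H b p (pt t y') := by
    have k := congrArg xs e
    rw [Js, Js, JJ, JJ, xs_pt, xs_pt, ph, ph, ← r4, ← r5] at k
    exact rz_inj (smul_right_injective _ u0.ne' k)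
  have c0 : H 2 (ar k p (pt t y)) * y 0 / rd (pt t y) =
      H 2 (ar k p (pt t y')) * y' 0 / rd (pt t y') := congrArg (fun z : X => z 0) r7
  have c1 : sgn b * (H 2 (ar k p (pt t y)) * y 1 / rd (pt t y)) =
      sgn b * (H 2 (ar k p (pt t y')) * y' 1 / rd (pt t y')) := congrArg (fun z : X => z 1) r7
  have c2 : y 2 / rd (pt t y) = y' 2 / rd (pt t y') := r3
  rw [← r4, ← r6] at c0 c1
  rw [← r6] at c2
  ext i
  fin_cases i
  · exact mul_left_cancel₀ u3.ne' ((div_left_inj' n1.ne').1 c0)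
  · exact mul_left_cancel₀ u3.ne' ((div_left_inj' n1.ne').1 (mul_left_cancel₀ s0 c1))
  · exact (div_left_inj' n1.ne').1 c2

/-! ### Smoothness -/

theorem jj_cd (hG : IsG p0 k ε0 δ G) (hH : IsH p0 k ε0 δ G H) (hp : p ∈ Metric.ball p0 ε0)
    (hw : xs w ≠ 0) (hs : Real.exp (-k * w.1) < 1 + δ) (b : Bool) :
    ContDiffAt ℝ ∞ (fun x : P3 × R4 => JJ k H b x.1 x.2) (p, w) := by
  obtain ⟨a0, a1, -⟩ := hG.par p hp
  obtain ⟨u0, u1, u2, -⟩ := val hG hH hp hs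
  obtain ⟨m0, m1, m2, -, m4, -⟩ := hor a1
  have h0 : rd w ≠ 0 := norm_ne_zero_iff.2 hw
  have h1 : p.1 ^ 2 - p.2.1 ^ 2 ≠ 0 := by nlinarith [sq_abs p.2.1, abs_nonneg p.2.1]
  have cr : ContDiffAt ℝ ∞ (fun x : P3 × R4 => rd x.2) (p, w) :=
    ContDiffAt.comp (g := rd) (p, w) (P354XA.rd_cd h0) contDiffAt_snd
  have cq : ContDiffAt ℝ ∞ (fun x : P3 × R4 => √(x.1.1 ^ 2 - x.1.2.1 ^ 2)) (p, w) :=
    ContDiffAt.sqrt (by fun_prop) h1
  have cM : ContDiffAt ℝ ∞ (fun x : P3 × R4 => x.1.1) (p, w) := by fun_prop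
  have ca : ContDiffAt ℝ ∞ (fun x : P3 × R4 => x.1.2.1) (p, w) := by fun_prop
  have cm : ContDiffAt ℝ ∞ (fun x : P3 × R4 => rm x.1.1 x.1.2.1) (p, w) := cM.sub cq
  have cp : ContDiffAt ℝ ∞ (fun x : P3 × R4 => rp x.1.1 x.1.2.1) (p, w) := cM.add cq
  have n0 : rm p.1 p.2.1 ^ 2 + p.2.1 ^ 2 ≠ 0 := by positivity
  have n1 : rp p.1 p.2.1 ≠ 0 := by linarith
  have ck : ContDiffAt ℝ ∞ (fun x : P3 × R4 => P354R.kap x.1.1 x.1.2.1) (p, w) :=
    (cp.sub cm).div ((cm.pow 2).add (ca.pow 2)) n0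
  have co : ContDiffAt ℝ ∞ (fun x : P3 × R4 => omm x.1.1 x.1.2.1) (p, w) :=
    ca.div ((cm.pow 2).add (ca.pow 2)) n0
  have cg : ContDiffAt ℝ ∞ (fun x : P3 × R4 => ka x.1.1 x.1.2.1) (p, w) :=
    cq.div ((contDiffAt_const.mul cM).mul cp) (mul_ne_zero (mul_ne_zero two_ne_zero m0.ne') n1)
  have cA : ContDiffAt ℝ ∞ (fun x : P3 × R4 => ar k x.1 x.2) (p, w) :=
    contDiffAt_fst.prodMk (ContDiffAt.prodMk (by fun_prop)
      (ContDiffAt.div (f := fun x : P3 × R4 => x.2.2.2.2) (by fun_prop) cr h0))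
  have cH : ∀ i, ContDiffAt ℝ ∞ (fun x : P3 × R4 => H i (ar k x.1 x.2)) (p, w) := fun i =>
    (hH.smooth i).contDiffAt.comp (p, w) cA
  have ct : ContDiffAt ℝ ∞ (fun x : P3 × R4 => tb k x.1 x.2) (p, w) :=
    (contDiffAt_const.div ck (kap_pos a0 a1).ne').mul (cr.log h0)
  have cf : ContDiffAt ℝ ∞ (fun x : P3 × R4 => ph k H x.1 x.2) (p, w) := (co.mul ct).sub (cH 3)
  have l1 := (cp.sub (cH 0)).log (sub_pos.2 u2).ne'
  have l2 := ((cH 0).sub cm).log (sub_pos.2 u1).ne'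
  have cT : ContDiffAt ℝ ∞ (fun x : P3 × R4 => hT x.1.1 x.1.2.1 (H 0 (ar k x.1 x.2))) (p, w) :=
    (l1.sub ((cm.div cp n1).mul l2)).div (contDiffAt_const.mul cg)
      (mul_ne_zero two_ne_zero m4.ne')
  have cP : ContDiffAt ℝ ∞ (fun x : P3 × R4 => hP x.1.1 x.1.2.1 (H 0 (ar k x.1 x.2))) (p, w) :=
    (ca.div (cp.sub cm) (sub_pos.2 m2).ne').mul (l1.sub l2)
  have cα := ((contDiffAt_const (c := sgn b)).mul cf).add cP
  have d0 : ContDiffAt ℝ ∞ (fun x : P3 × R4 => H 2 (ar k x.1 x.2) * x.2.2.1 / rd x.2) (p, w) :=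
    ((cH 2).mul (by fun_prop)).div cr h0
  have d1 : ContDiffAt ℝ ∞ (fun x : P3 × R4 =>
      sgn b * (H 2 (ar k x.1 x.2) * x.2.2.2.1 / rd x.2)) (p, w) :=
    contDiffAt_const.mul (((cH 2).mul (by fun_prop)).div cr h0)
  exact ((contDiffAt_const.mul ct).add cT).prodMk
    (((cH 0).mul ((cα.cos.mul d0).sub (cα.sin.mul d1))).prodMk
      (((cH 0).mul ((cα.sin.mul d0).add (cα.cos.mul d1))).prodMk ((cH 0).mul (cH 1))))

/-- JK. -/
theorem jk : JK := by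
  intro p0 k ε0 δ G H hG hH p hp w hw hs
  obtain ⟨a0, a1, -⟩ := hG.par p hp
  obtain ⟨u0, u1, u2, u3, u4⟩ := val hG hH hp hs
  have kt := kap_pt a1 u0 u1 u2 (tb k p w) (ph k H p w) (dir_norm hw true u4)
  have kf := kap_pt a1 u0 u1 u2 (-tb k p w) (-ph k H p w) (dir_norm hw false u4)
  have jt : JJ k H true p w = pt (tb k p w + hT p.1 p.2.1 (H 0 (ar k p w))) (H 0 (ar k p w) •
      rz (ph k H p w + hP p.1 p.2.1 (H 0 (ar k p w))) (dir k H true p w)) := by simp [JJ, sgn]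
  have jf : JJ k H false p w = pt (-tb k p w + hT p.1 p.2.1 (H 0 (ar k p w))) (H 0 (ar k p w) •
      rz (-ph k H p w + hP p.1 p.2.1 (H 0 (ar k p w))) (dir k H false p w)) := by simp [JJ, sgn]
  refine ⟨fun b => ⟨jj_cd hG hH hp hw hs b, jj_rd hw b u0 u4, ?_, dir_norm hw b u4,
    fun c hc => jj_dil hw b hc⟩, by rw [jt, kt], ?_, fun h0 hk => ?_, jj_inj hG hH hp hs⟩
  · exact ⟨(jj_rd hw b u0 u4).symm ▸ u1, (jj_rd hw b u0 u4).symm ▸ u2⟩
  · rw [jt, jf, kt, kf, dir_false, mul_neg, neg_neg, mul_neg, ← neg_sub',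
      mir_kp a1 _ _ _ (dir_norm hw true u4)]
  · have n1 : 0 < rd w := norm_pos_iff.2 hw
    have e1 : ar k p w = (p, 1, zh (xs w)) := by rw [ar, h0, mul_zero, Real.exp_zero]
    obtain ⟨i0, i1, i2, i3⟩ := hH.init p hp (zh (xs w))
    have e2 : tb k p w = Real.log ‖xs w‖ := by
      rw [tb, hk, div_self (kap_pos a0 a1).ne', one_mul, rd]
    have e3 : dir k H true p w = (rd w)⁻¹ • xs w := by
      rw [dir, e1, i1, i2]
      ext i; fin_cases i <;> simp [xs, sgn, zh, rd, div_eq_inv_mul]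
    rw [jt, kt, e3, kp_smul _ _ _ _ _ (inv_pos.2 n1), ph, e1, i0, i3, e2, cyl, sub_zero, sub_mul]
    rfl

end Vale.Agent.P354YW
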